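import Vale.Agent.P283M.Md.Alg

/-!
# P283M, row MOD: the ring of a divisorial place is formally smooth; smooth affine models
-/

open Set Polynomial
open Vale.Agent.P287D Vale.Agent.P287D.Cb Vale.Agent.P297Z

noncomputable section

namespace Vale.Agent.P283M.Md

variable {K : Type} [Field K] [Algebra ℂ K] {P : Pl K} {n : ℕ}

/-- the ring of the place as an algebra -/
def rg (P : Pl K) : Subalgebra ℂ K := { P.ring.toSubring with algebraMap_mem' := P.con }

theorem mem_rg {x : K} : x ∈ rg P ↔ x ∈ P.ring := Iff.rfl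

theorem unit_rg {x : rg P} (h : ¬ Mx P x) : IsUnit x :=
  .of_mul_eq_one ⟨(x : K)⁻¹, inv_mem_of h⟩ (Subtype.ext (mul_inv_cancel₀ (ne_of_nmx h)))

theorem loc {B : Type} [CommRing B] [Algebra B (rg P)]
    (hi : Function.Injective (algebraMap B (rg P))) (q : Ideal B) [q.IsPrime]
    (hq : ∀ b, b ∈ q ↔ Mx P (algebraMap B (rg P) b))
    (lo : ∀ x ∈ P.ring, ∃ a b, ¬ Mx P (algebraMap B (rg P) a) ∧
      algebraMap B (rg P) a * x = algebraMap B (rg P) b) : IsLocalization.AtPrime (rg P) q :=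
  (isLocalization_iff _ _).2 ⟨fun y => unit_rg fun h => y.2 ((hq _).2 h), fun z =>
    have ⟨a, b, h, e⟩ := lo z z.2
    ⟨⟨b, a, fun k => h ((hq _).1 k)⟩, Subtype.ext ((mul_comm _ _).trans e)⟩,
    fun h => ⟨1, by rw [hi h]⟩⟩

/-- the centre of `P` on `B` -/
def ctr {B : Type} [CommRing B] (j : B →+* K) (h : ∀ b, j b ∈ P.ring) : Ideal B :=
  (IsLocalRing.maximalIdeal P.ring).comap (j.codRestrict P.ring h)

instance {B : Type} [CommRing B] (j : B →+* K) (h : ∀ b, j b ∈ P.ring) : (ctr j h).IsPrime :=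
  Ideal.comap_isPrime _ _

theorem mem_ctr {B : Type} [CommRing B] {j : B →+* K} {h : ∀ b, j b ∈ P.ring} {b : B} :
    b ∈ ctr j h ↔ Mx P (j b) := by
  rw [← rd_eq_zero (h b), rd_of (h b)]
  exact (IsLocalRing.residue_eq_zero_iff _).symm

theorem unr {F R L : Type} [Field F] [CharZero F] [CommRing R] [CommRing L] [IsLocalRing L]
    [Algebra F R] [Algebra F L] [Algebra R L] [IsScalarTower F R L] [Algebra.EssFiniteType R L]
    (t : R) (ht : algebraMap R L t ∈ IsLocalRing.maximalIdeal L)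
    (h1 : ∀ w ∈ IsLocalRing.maximalIdeal L, ∃ c, w = algebraMap R L t * c)
    (h2 : ∀ z : L, ∃ g : F[X], g ≠ 0 ∧ aeval z g ∈ IsLocalRing.maximalIdeal L) :
    Algebra.FormallyUnramified R L := ⟨by
  refine (Submodule.subsingleton_iff L).1 (subsingleton_iff_bot_eq_top.1 (Eq.symm
    (Submodule.eq_bot_of_le_smul_of_le_jacobson_bot (IsLocalRing.maximalIdeal L) ⊤
      Module.Finite.fg_top ?_ (IsLocalRing.jacobson_eq_maximalIdeal _ bot_ne_top).ge)))
  rw [← KaehlerDifferential.span_range_derivation, Submodule.span_le]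
  rintro _ ⟨z, rfl⟩
  rw [KaehlerDifferential.span_range_derivation]
  have k0 : ∀ w ∈ IsLocalRing.maximalIdeal L, KaehlerDifferential.D R L w ∈
      IsLocalRing.maximalIdeal L • (⊤ : Submodule L Ω[L⁄R]) := fun w hw => by
    obtain ⟨c, rfl⟩ := h1 w hw
    rw [Derivation.leibniz, Derivation.map_algebraMap, smul_zero, add_zero]
    exact Submodule.smul_mem_smul ht trivial
  have k : ∀ (m : ℕ) (g : F[X]), g.natDegree = m → g ≠ 0 →
      aeval z g ∈ IsLocalRing.maximalIdeal L → KaehlerDifferential.D R L z ∈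
        IsLocalRing.maximalIdeal L • (⊤ : Submodule L Ω[L⁄R]) := by
    intro m
    induction m with
    | zero =>
      intro g h1 h2 h3
      rw [eq_C_of_natDegree_eq_zero h1] at h2 h3
      rw [aeval_C] at h3
      exact (h3 ((IsUnit.mk0 _ fun e => h2 (by rw [e, map_zero])).map _)).elim
    | succ m ih =>
      intro g h1 h2 h3
      by_cases h : aeval z (derivative g) ∈ IsLocalRing.maximalIdeal L
      · exact ih _ (by rw [natDegree_derivative, h1]; rfl)
          (fun e => by rw [derivative_eq_zero.1 e] at h1; omega) h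
      have h4 := k0 _ h3
      rw [← aeval_map_algebraMap R, Derivation.map_aeval, derivative_map,
        aeval_map_algebraMap] at h4
      obtain ⟨v, hv⟩ := IsLocalRing.notMem_maximalIdeal.1 h
      have := Submodule.smul_mem _ (↑v⁻¹ : L) h4
      rwa [← hv, smul_smul, v.inv_mul, one_smul] at this
  obtain ⟨g, g0, hg⟩ := h2 z
  exact k _ g rfl g0 hg⟩

theorem fsm_loc {F B S : Type} [Field F] [CommRing B] [IsDomain B] [CommRing S] [IsLocalRing S]
    [Algebra ℂ F] [Algebra F B] [Algebra ℂ B] [IsScalarTower ℂ F B] [Algebra B S] [Algebra F S]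
    [Algebra ℂ S] [IsScalarTower F B S] [IsScalarTower ℂ B S] [Algebra.FiniteType F B]
    [Algebra.FormallySmooth ℂ F] (q : Ideal B) [q.IsPrime] [IsLocalization.AtPrime S q] (t : B)
    (h0 : Transcendental F t) (ht : algebraMap B S t ∈ IsLocalRing.maximalIdeal S)
    (h1 : ∀ w ∈ IsLocalRing.maximalIdeal S, ∃ c, w = algebraMap B S t * c)
    (h2 : ∀ z : S, ∃ g : F[X], g ≠ 0 ∧ aeval z g ∈ IsLocalRing.maximalIdeal S) :
    Algebra.FormallySmooth ℂ S := by
  have : CharZero F := charZero_of_injective_algebraMap (algebraMap ℂ _).injective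
  let _ := (aeval t : F[X] →ₐ[F] B).toRingHom.toAlgebra
  let _ := ((algebraMap B S).comp (algebraMap F[X] B)).toAlgebra
  have : IsScalarTower F[X] B S := .of_algebraMap_eq fun c => rfl
  have : IsScalarTower F F[X] B := .of_algebraMap_eq fun c => ((aeval t).commutes c).symm
  have : IsScalarTower F F[X] S := .of_algebraMap_eq fun c => by
    rw [IsScalarTower.algebraMap_apply F[X] B S, ← IsScalarTower.algebraMap_apply F F[X] B,
      ← IsScalarTower.algebraMap_apply]
  have : IsScalarTower ℂ F[X] B := .of_algebraMap_eq fun c => by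
    rw [IsScalarTower.algebraMap_apply ℂ F F[X], ← IsScalarTower.algebraMap_apply F F[X] B,
      ← IsScalarTower.algebraMap_apply]
  have : Module.IsTorsionFree F[X] B :=
    Module.isTorsionFree_iff_algebraMap_injective.2 (transcendental_iff_injective.1 h0)
  have : Algebra.FiniteType F[X] B := .of_restrictScalars_finiteType F _ _
  have : Algebra.FinitePresentation F[X] B := Algebra.FinitePresentation.of_finiteType.1 ‹_›
  have : Algebra.EssFiniteType B S := .of_isLocalization _ q.primeCompl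
  have : Algebra.EssFiniteType F[X] S := .comp _ B _
  have e0 : algebraMap F[X] S X = algebraMap B S t := congrArg (algebraMap B S) (aeval_X t)
  have : Algebra.FormallyUnramified F[X] S := unr (F := F) X (e0 ▸ ht) (e0 ▸ h1) h2
  let e : S ≃ₐ[B] Localization.AtPrime q := IsLocalization.algEquiv q.primeCompl _ _
  have : Algebra.IsUnramifiedAt F[X] q := .of_equiv (e.restrictScalars F[X])
  have := Algebra.IsEtaleAt.of_isUnramifiedAt_of_flat (R := F[X]) q
  have : Algebra.FormallySmooth ℂ F[X] := .comp ℂ F _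
  have : Algebra.FormallySmooth ℂ (Localization.AtPrime q) := .comp ℂ F[X] _
  exact .of_equiv (e.symm.restrictScalars ℂ)

instance : IsLocalRing (rg P) := inferInstanceAs (IsLocalRing P.ring)

theorem mem_max {w : rg P} : w ∈ IsLocalRing.maximalIdeal (rg P) ↔ Mx P w :=
  ⟨fun h => by_contra fun k => h (unit_rg k), fun h k => by
    obtain ⟨v, hv⟩ := k.exists_left_inv
    have := h.mul v.2
    rw [← Subalgebra.coe_mul, hv] at this
    exact not_mx_one this⟩

theorem fsm_of {F : Type} [Field F] [Algebra ℂ F] [Algebra F K] [IsScalarTower ℂ F K]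
    [Algebra.FormallySmooth ℂ F] (hF : ∀ c, algebraMap F K c ∈ P.ring) {π : K} (ho : P.ord π = 1)
    (ht : Transcendental F π) (hp : ∀ z ∈ P.ring, ∃ g : F[X], g ≠ 0 ∧ Mx P (aeval z g))
    {C : Subalgebra ℂ K} (fg : C.FG) (m1 : π ∈ C) (hC : Lo P C) :
    Algebra.FormallySmooth ℂ (rg P) := by
  obtain ⟨T, hT⟩ := fg
  have p0 : π ≠ 0 := fun e => by simp [e] at ho
  let B := Algebra.adjoin F (T : Set K)
  have le : ∀ x ∈ C, x ∈ B := fun x hx => by
    rw [← hT] at hx
    have : Algebra.adjoin ℂ (T : Set K) ≤ B.restrictScalars ℂ :=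
      Algebra.adjoin_le fun y hy => Algebra.subset_adjoin (R := F) hy
    exact this hx
  have mB : ∀ b ∈ B, b ∈ P.ring := fun b hb => by
    induction hb using Algebra.adjoin_induction with
    | mem x hx => exact hC.le x (hT ▸ Algebra.subset_adjoin hx)
    | algebraMap x => exact hF x
    | add x y _ _ hx hy => exact add_mem hx hy
    | mul x y _ _ hx hy => exact mul_mem hx hy
  have : Algebra.FiniteType F B := (Subalgebra.fg_iff_finiteType _).1 ⟨T, rfl⟩
  clear_value B
  let q := ctr (P := P) B.val.toRingHom fun b => mB _ b.2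
  let _ : Algebra B (rg P) := (B.val.toRingHom.codRestrict (rg P) fun b => mB _ b.2).toAlgebra
  let _ : Algebra F (rg P) := ((algebraMap F K).codRestrict (rg P) hF).toAlgebra
  have : IsScalarTower ℂ B (rg P) := .of_algebraMap_eq fun c => rfl
  have : IsScalarTower F B (rg P) := .of_algebraMap_eq fun c => rfl
  have : IsLocalization.AtPrime (rg P) q := loc (B := B) (fun x y h => Subtype.ext
    (congrArg (fun z : rg P => (z : K)) h)) q (fun b => mem_ctr) fun x hx =>
      have ⟨c, c1, c2, c3⟩ := hC.lo x hx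
      ⟨⟨c, le _ c1⟩, ⟨_, le _ c3⟩, c2, rfl⟩
  refine fsm_loc (F := F) q ⟨π, le _ m1⟩ (fun h => ht (h.algHom B.val))
    (mem_max.2 (mx_iff.2 (.inr (ho ▸ one_pos : 0 < P.ord π)))) (fun w hw => ?_) fun z => ?_
  · have m : (w : K) / π ∈ P.ring := by
      by_cases w0 : (w : K) = 0
      · simp [w0, zero_mem]
      · have := (mx_iff.1 (mem_max.1 hw)).resolve_left w0
        refine mem_ord ?_
        rw [div_eq_mul_inv, Pl.ord_mul _ w0 (inv_ne_zero p0), Pl.ord_inv, ho]
        omega
    exact ⟨⟨_, m⟩, Subtype.ext (mul_div_cancel₀ _ p0).symm⟩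
  · obtain ⟨g, g0, hg⟩ := hp _ z.2
    have : (rg P).val.toRingHom (aeval z g) = aeval (z : K) g := by
      rw [aeval_def, hom_eval₂, aeval_def]
      rfl
    exact ⟨g, g0, mem_max.2 (this ▸ hg :)⟩

section ada

variable {π : K} {u : Fin n → K} (a : Ada P π u)

include a

theorem fld_le {x : K} (hx : x ∈ IntermediateField.adjoin ℂ (range u)) : x ∈ P.ring := by
  have hS : range u ⊆ P.ring := by rintro _ ⟨i, rfl⟩; exact a.mem i
  obtain ⟨r, hr, s, hs, rfl⟩ := IntermediateField.mem_adjoin_iff_div.1 hx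
  by_cases h : Mx P s
  · simp [unit0 a.mem a.ind hs h, zero_mem]
  · exact div_eq_mul_inv r s ▸ mul_mem (adj_mem hS hr) (inv_mem_of h)

theorem fld_unit {x : K} (hx : x ∈ IntermediateField.adjoin ℂ (range u)) (h : Mx P x) : x = 0 := by
  by_contra x0
  have := h.mul (fld_le a (inv_mem hx))
  rw [inv_mul_cancel₀ x0] at this
  exact not_mx_one this

theorem exists_poly (hK : FF K (n + 1)) {z : K} (hz : z ∈ P.ring) :
    ∃ g : (IntermediateField.adjoin ℂ (range u))[X], g ≠ 0 ∧ Mx P (aeval z g) := by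
  let F := IntermediateField.adjoin ℂ (range u)
  let ρ : F →ₐ[ℂ] P.κ := rdA F.toSubalgebra fun _ h => fld_le a h
  have le : Algebra.adjoin ℂ (P.rd '' range u) ≤ ρ.range := Algebra.adjoin_le (by
    rintro _ ⟨_, ⟨i, rfl⟩, rfl⟩
    exact ⟨⟨u i, IntermediateField.subset_adjoin _ _ ⟨i, rfl⟩⟩, rfl⟩)
  obtain ⟨q, q0, hq⟩ := ((a.sp hK).2 (P.rd z)).tower_top_of_subalgebra_le le
  obtain ⟨g, rfl⟩ := map_surjective ρ.rangeRestrict.toRingHom ρ.rangeRestrict_surjective q
  refine ⟨g, fun e => q0 (by rw [e, Polynomial.map_zero]), ?_⟩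
  let φ : F →+* P.ring := F.val.toRingHom.codRestrict P.ring fun x => fld_le a x.2
  have e : aeval z g = P.ring.subtype (eval₂ φ ⟨z, hz⟩ g) := by
    rw [hom_eval₂]
    rfl
  have m : aeval z g ∈ P.ring := e ▸ Subtype.prop _
  rw [← rd_eq_zero m, ← hq, aeval_def (P.rd z), eval₂_map, rd_of m, rd_of hz]
  have e2 : (⟨aeval z g, m⟩ : P.ring) = eval₂ φ ⟨z, hz⟩ g := Subtype.ext e
  rw [e2]
  refine (hom_eval₂ g φ (IsLocalRing.residue P.ring) _).trans ?_
  congr 1
  ext x
  exact (rd_of (fld_le a x.2)).symm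

open scoped IntermediateField.algebraAdjoinAdjoin in
theorem fsm_ada (hK : FF K (n + 1)) : Algebra.FormallySmooth ℂ (rg P) := by
  obtain ⟨C, fg, m1, -, hC⟩ := exists_lo a hK
  have : Algebra.EssFiniteType ℂ (IntermediateField.adjoin ℂ (range u)) :=
    IntermediateField.essFiniteType_iff.2 ⟨(finite_range u).toFinset, by simp⟩
  exact fsm_of (F := IntermediateField.adjoin ℂ (range u)) (fun c => fld_le a c.2) a.ord
    (fun h => trans_of_mx a.mem a.ind a.ne a.mx
      ((IsFractionRing.isAlgebraic_iff (Algebra.adjoin ℂ (range u)) _ K).2 h))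
    (fun z hz => exists_poly a hK hz) fg m1 hC

end ada

theorem fsm (hK : FF K n) (P : Pl K) : Algebra.FormallySmooth ℂ (rg P) := by
  cases n with
  | zero => exact (no_pl hK P).elim
  | succ n => exact (exists_ada hK P).elim fun _ a => fsm_ada a hK

/-- the localisation at one element -/
def away (B : Subalgebra ℂ K) (f : K) (hf : f ∈ B) : Subalgebra ℂ K where
  carrier := {x | ∃ m : ℕ, f ^ m * x ∈ B}
  mul_mem' := fun {a b} ⟨m, h⟩ ⟨k, h'⟩ => ⟨m + k, by
    rw [pow_add, mul_mul_mul_comm]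
    exact mul_mem h h'⟩
  add_mem' := fun {a b} ⟨m, h⟩ ⟨k, h'⟩ => ⟨m + k, by
    rw [pow_add, mul_add, mul_assoc, mul_assoc, mul_left_comm]
    exact add_mem (mul_mem (pow_mem hf k) h) (mul_mem (pow_mem hf m) h')⟩
  algebraMap_mem' c := ⟨0, by simp⟩

theorem le_away {B : Subalgebra ℂ K} {f : K} (hf : f ∈ B) : B ≤ away B f hf :=
  fun x hx => ⟨0, by simpa using hx⟩

theorem away_loc {B : Subalgebra ℂ K} {f : K} (hf : f ∈ B) (f0 : f ≠ 0) :
    @IsLocalization.Away B _ ⟨f, hf⟩ (away B f hf) _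
      (Subalgebra.inclusion (le_away hf)).toRingHom.toAlgebra := by
  let _ := (Subalgebra.inclusion (le_away hf)).toRingHom.toAlgebra
  refine (isLocalization_iff _ _).2 ⟨?_, fun z => ?_, fun h => ⟨1, ?_⟩⟩
  · rintro ⟨_, m, rfl⟩
    exact .of_mul_eq_one ⟨(f ^ m)⁻¹, m, by simp [f0]⟩
      (Subtype.ext (mul_inv_cancel₀ (pow_ne_zero m f0)))
  · obtain ⟨m, hm⟩ := z.2
    exact ⟨⟨⟨_, hm⟩, _, m, rfl⟩, Subtype.ext (mul_comm _ _)⟩
  · rw [Subalgebra.inclusion_injective _ h]

theorem ic_away {B : Subalgebra ℂ K} (h : IsIntegrallyClosed B) {f : K} (hf : f ∈ B) (f0 : f ≠ 0) :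
    IsIntegrallyClosed (away B f hf) := by
  let _ := (Subalgebra.inclusion (le_away hf)).toRingHom.toAlgebra
  have := away_loc hf f0
  exact isIntegrallyClosed_of_isLocalization _ (.powers (⟨f, hf⟩ : B))
    (powers_le_nonZeroDivisors_of_noZeroDivisors fun e => f0 (congrArg Subtype.val e))

theorem Lo.away {B : Subalgebra ℂ K} (h : Lo P B) {f : K} (hf : f ∈ B) (f0 : ¬ Mx P f) :
    Lo P (away B f hf) := ⟨fun x ⟨m, hm⟩ => by
  have := mul_mem (inv_mem_of (nmx_pow f0 m)) (h.le _ hm)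
  rwa [inv_mul_cancel_left₀ (ne_of_nmx (nmx_pow f0 m))] at this, fun x hx =>
    have ⟨c, c1, c2, c3⟩ := h.lo x hx
    ⟨c, le_away hf c1, c2, le_away hf c3⟩⟩

theorem Lo.den {B : Subalgebra ℂ K} (h : Lo P B) (s : Finset K) (hs : ∀ x ∈ s, x ∈ P.ring) :
    ∃ a ∈ B, ¬ Mx P a ∧ ∀ x ∈ s, a * x ∈ B := by
  classical
  induction s using Finset.induction_on with
  | empty => exact ⟨1, one_mem _, not_mx_one, by simp⟩
  | insert y s _ ih =>
    obtain ⟨a, a1, a2, a3⟩ := ih fun x hx => hs x (Finset.mem_insert_of_mem hx)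
    obtain ⟨b, b1, b2, b3⟩ := h.lo y (hs y (Finset.mem_insert_self _ _))
    refine ⟨a * b, mul_mem a1 b1, nmx_mul a2 b2, fun x hx => ?_⟩
    rcases Finset.mem_insert.1 hx with rfl | hx
    · exact mul_assoc a b x ▸ mul_mem a1 b3
    · exact mul_right_comm a x b ▸ mul_mem (a3 x hx) b1

/-- **a smooth affine model of a place** -/
theorem exists_smooth (hK : FF K n) (P : Pl K) (s : Finset K) (hs : ∀ x ∈ s, x ∈ P.ring) :
    ∃ B : Subalgebra ℂ K, Algebra.Smooth ℂ B ∧ IsIntegrallyClosed B ∧ (∀ x ∈ s, x ∈ B) ∧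
      Lo P B := by
  have := fsm hK P
  obtain ⟨C, fg, ic, hC⟩ : ∃ C : Subalgebra ℂ K, C.FG ∧ IsIntegrallyClosed C ∧ Lo P C := by
    cases n with
    | zero => exact (no_pl hK P).elim
    | succ n =>
      obtain ⟨u, a⟩ := exists_ada hK P
      obtain ⟨C, fg, -, hC⟩ := exists_lo a hK
      exact ⟨C, fg, hC⟩
  have : Algebra.FiniteType ℂ C := (Subalgebra.fg_iff_finiteType _).1 fg
  have : Algebra.FinitePresentation ℂ C := Algebra.FinitePresentation.of_finiteType.1 ‹_›
  let q := ctr (P := P) C.val.toRingHom fun b => hC.le _ b.2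
  let _ : Algebra C (rg P) := (C.val.toRingHom.codRestrict (rg P) fun b => hC.le _ b.2).toAlgebra
  have : IsScalarTower ℂ C (rg P) := .of_algebraMap_eq fun c => rfl
  have : IsLocalization.AtPrime (rg P) q := loc (B := C) (fun x y h => Subtype.ext
    (congrArg (fun z : rg P => (z : K)) h)) q (fun b => mem_ctr) fun x hx =>
      have ⟨c, c1, c2, c3⟩ := hC.lo x hx
      ⟨⟨c, c1⟩, ⟨_, c3⟩, c2, rfl⟩
  let e : rg P ≃ₐ[C] Localization.AtPrime q := IsLocalization.algEquiv q.primeCompl _ _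
  have : Algebra.IsSmoothAt ℂ q := .of_equiv (e.restrictScalars ℂ)
  obtain ⟨f, f1, f2⟩ := Algebra.IsSmoothAt.exists_notMem_smooth ℂ q
  have f3 : ¬ Mx P f := fun h => f1 (mem_ctr.2 h)
  obtain ⟨a, a1, a2, a3⟩ := hC.den s hs
  have s1 : Algebra.Smooth ℂ (away C f f.2) := by
    let _ := (Subalgebra.inclusion (le_away f.2)).toRingHom.toAlgebra
    have := away_loc f.2 (ne_of_nmx f3)
    have : IsScalarTower ℂ C (away C f f.2) := .of_algebraMap_eq fun c => rfl
    exact .of_equiv ((IsLocalization.algEquiv (.powers f) (Localization.Away f)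
      (away C f f.2)).restrictScalars ℂ)
  have a4 := le_away f.2 a1
  refine ⟨away _ a a4, ?_, ic_away (ic_away ic f.2 (ne_of_nmx f3)) a4 (ne_of_nmx a2),
    fun x hx => ⟨1, le_away f.2 (by simpa using a3 x hx)⟩, (hC.away f.2 f3).away a4 a2⟩
  let _ := (Subalgebra.inclusion (le_away a4)).toRingHom.toAlgebra
  have := away_loc a4 (ne_of_nmx a2)
  have : IsScalarTower ℂ (away C f f.2) (away _ a a4) := .of_algebraMap_eq fun c => rfl
  have : Algebra.Smooth (away C f f.2) (away _ a a4) := .of_isLocalization_Away ⟨a, a4⟩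
  exact .comp ℂ (away C f f.2) _

end Vale.Agent.P283M.Md
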