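import Vale.Agent.P287D.Cb.Ad

/-!
# P283M, row MOD: a divisorial place is the local ring of a prime divisor on a smooth affine model
-/

open Set Polynomial
open Vale.Agent.P287D Vale.Agent.P287D.Cb Vale.Agent.P297Z

noncomputable section

namespace Vale.Agent.P283M.Md

variable {K : Type} [Field K] [Algebra ℂ K] {P : Pl K} {n : ℕ}

/-- the ring of `P` is the localisation of `B` at the centre of `P` -/
structure Lo (P : Pl K) (B : Subalgebra ℂ K) : Prop where
  le : ∀ b ∈ B, b ∈ P.ring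
  lo : ∀ x ∈ P.ring, ∃ a ∈ B, ¬ Mx P a ∧ a * x ∈ B

theorem ne_of_nmx {a : K} (ha : ¬ Mx P a) : a ≠ 0 := fun e => ha (e ▸ mx_zero)

theorem nmx_mul {a b : K} (ha : ¬ Mx P a) (hb : ¬ Mx P b) : ¬ Mx P (a * b) := fun h => by
  have := h.mul (inv_mem_of ha)
  rw [inv_mul_cancel_left₀ (ne_of_nmx ha)] at this
  exact hb this

theorem nmx_pow {a : K} (ha : ¬ Mx P a) (m : ℕ) : ¬ Mx P (a ^ m) := by
  induction m with
  | zero => simpa using not_mx_one
  | succ m ih => exact pow_succ a m ▸ nmx_mul ih ha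

theorem Lo.frac {B : Subalgebra ℂ K} (h : Lo P B) (x : K) : ∃ a ∈ B, a ≠ 0 ∧ a * x ∈ B := by
  rcases P.ring.mem_or_inv_mem x with hx | hx
  · obtain ⟨a, a1, a2, a3⟩ := h.lo x hx
    exact ⟨a, a1, ne_of_nmx a2, a3⟩
  · obtain ⟨a, a1, a2, a3⟩ := h.lo _ hx
    by_cases x0 : x = 0
    · exact ⟨1, one_mem _, one_ne_zero, by simp [x0]⟩
    · exact ⟨_, a3, mul_ne_zero (ne_of_nmx a2) (inv_ne_zero x0), by rwa [inv_mul_cancel_right₀ x0]⟩

section ada

variable {π : K} {u : Fin n → K} (a : Ada P π u)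

include a

theorem adj_le {z : K} (hz : z ∈ Algebra.adjoin ℂ (range (Fin.cons π u : Fin (n + 1) → K))) :
    z ∈ P.ring := adj_mem (by rintro _ ⟨i, rfl⟩; exact a.cons_mem i) hz

theorem div_mem {z : K} (hz : z ∈ Algebra.adjoin ℂ (range (Fin.cons π u : Fin (n + 1) → K)))
    (h : Mx P z) : z / π ∈ Algebra.adjoin ℂ (range (Fin.cons π u : Fin (n + 1) → K)) := by
  have mA := fun z => adj_le a (z := z)
  generalize hA : Algebra.adjoin ℂ (range (Fin.cons π u : Fin (n + 1) → K)) = A at hz mA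
  have pA : π ∈ A := hA ▸ Algebra.subset_adjoin ⟨0, rfl⟩
  have le : Algebra.adjoin ℂ (range u) ≤ A :=
    hA ▸ Algebra.adjoin_mono (by rintro _ ⟨i, rfl⟩; exact ⟨i.succ, rfl⟩)
  have dec : ∀ z ∈ A, ∃ z0 ∈ Algebra.adjoin ℂ (range u), ∃ z1 ∈ A, z = z0 + π * z1 := by
    intro z hz
    rw [← hA] at hz
    induction hz using Algebra.adjoin_induction with
    | mem z hz =>
      obtain ⟨i, rfl⟩ := hz
      refine Fin.cases ⟨0, zero_mem _, 1, one_mem _, by simp⟩ (fun i => ?_) i
      exact ⟨u i, Algebra.subset_adjoin ⟨i, rfl⟩, 0, zero_mem _, by simp⟩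
    | algebraMap c => exact ⟨_, Subalgebra.algebraMap_mem _ c, 0, zero_mem _, by simp⟩
    | add x y _ _ hx hy =>
      obtain ⟨x0, k1, x1, k2, rfl⟩ := hx
      obtain ⟨y0, k3, y1, k4, rfl⟩ := hy
      exact ⟨_, add_mem k1 k3, _, add_mem k2 k4, by ring⟩
    | mul x y _ _ hx hy =>
      obtain ⟨x0, k1, x1, k2, rfl⟩ := hx
      obtain ⟨y0, k3, y1, k4, rfl⟩ := hy
      exact ⟨_, mul_mem k1 k3, x0 * y1 + x1 * y0 + π * x1 * y1, add_mem (add_mem
        (mul_mem (le k1) k4) (mul_mem k2 (le k3))) (mul_mem (mul_mem pA k2) k4), by ring⟩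
  obtain ⟨z0, k1, z1, k2, e⟩ := dec z hz
  have : z0 = 0 := unit0 a.mem a.ind k1 (by
    have := h.sub (a.mx.mul (mA _ k2))
    rwa [e, mul_comm z1, add_sub_cancel_right] at this)
  rwa [e, this, zero_add, mul_div_cancel_left₀ _ a.ne]

theorem exists_prim (hK : FF K (n + 1)) (x : K) : ∃ p : K[X], p.eval x = 0 ∧
    (∀ i, p.coeff i ∈ Algebra.adjoin ℂ (range (Fin.cons π u : Fin (n + 1) → K))) ∧
      ∃ i, ¬ Mx P (p.coeff i) := by
  have k : ∀ (m : ℕ) (p : K[X]) (j : ℕ), p.coeff j ≠ 0 → P.ord (p.coeff j) = m → p.eval x = 0 →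
      (∀ i, p.coeff i ∈ Algebra.adjoin ℂ (range (Fin.cons π u : Fin (n + 1) → K))) →
      ∃ p : K[X], p.eval x = 0 ∧
        (∀ i, p.coeff i ∈ Algebra.adjoin ℂ (range (Fin.cons π u : Fin (n + 1) → K))) ∧
          ∃ i, ¬ Mx P (p.coeff i) := by
    intro m
    induction m with
    | zero =>
      intro p j h0 h1 h2 h3
      exact ⟨p, h2, h3, j, fun h => (mx_iff.1 h).elim h0 (by omega)⟩
    | succ m ih =>
      intro p j h0 h1 h2 h3
      by_cases h : ∃ i, ¬ Mx P (p.coeff i)
      · exact ⟨p, h2, h3, h⟩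
      push Not at h
      refine ih (p * C π⁻¹) j ?_ ?_ (by simp [h2]) fun i => ?_
      · rw [coeff_mul_C]
        exact mul_ne_zero h0 (inv_ne_zero a.ne)
      · rw [coeff_mul_C, Pl.ord_mul _ h0 (inv_ne_zero a.ne), Pl.ord_inv, a.ord]
        omega
      · rw [coeff_mul_C, ← div_eq_mul_inv]
        exact div_mem a (h3 i) (h i)
  obtain ⟨q, q0, hq⟩ := (alg_of_fin (hK.fin a.indep)).isAlgebraic x
  refine k _ (q.map (algebraMap _ K)) q.natDegree ?_ (Int.toNat_of_nonneg
    (Pl.ord_nonneg_of_mem _ (adj_le a ?_))).symm (by rwa [eval_map, ← aeval_def]) fun i => ?_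
  · rw [coeff_map]
    exact fun e => leadingCoeff_ne_zero.2 q0 (Subtype.ext e)
  all_goals
    rw [coeff_map]
    exact Subtype.prop _

open scoped IntermediateField.algebraAdjoinAdjoin in
theorem exists_lo (hK : FF K (n + 1)) :
    ∃ C : Subalgebra ℂ K, C.FG ∧ π ∈ C ∧ IsIntegrallyClosed C ∧ Lo P C := by
  have := hK.fin a.indep
  have prim := exists_prim a hK
  have mA := fun z => adj_le a (z := z)
  have e := a.indep.aevalEquiv
  have m0 : ∀ i, (Fin.cons π u : Fin (n + 1) → K) i ∈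
      Algebra.adjoin ℂ (range (Fin.cons π u : Fin (n + 1) → K)) := fun i =>
    Algebra.subset_adjoin ⟨i, rfl⟩
  have m1 := m0 0
  simp only [Fin.cons_zero] at m1
  generalize range (Fin.cons π u : Fin (n + 1) → K) = S at *
  let A := Algebra.adjoin ℂ S
  have : CharZero (IntermediateField.adjoin ℂ S) :=
    charZero_of_injective_algebraMap (algebraMap ℂ _).injective
  have : IsIntegrallyClosed A := IsIntegrallyClosed.of_equiv e.toRingEquiv
  have : Algebra.FiniteType ℂ A := .equiv inferInstance e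
  have : IsNoetherianRing A := Algebra.FiniteType.isNoetherianRing ℂ A
  have : Module.Finite A (integralClosure A K) :=
    IsIntegralClosure.finite A (IntermediateField.adjoin ℂ S) K _
  have ft : Algebra.FiniteType ℂ (integralClosure A K) := .trans (S := A) inferInstance inferInstance
  have mC : ∀ z ∈ A, z ∈ integralClosure A K := fun z hz => (integralClosure A K).algebraMap_mem ⟨z, hz⟩
  have ic : IsIntegrallyClosed (integralClosure A K) :=
    integralClosure.isIntegrallyClosedOfFiniteExtension (IntermediateField.adjoin ℂ S)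
  refine ⟨(integralClosure A K).restrictScalars ℂ, (Subalgebra.fg_iff_finiteType _).2 ft, mC _ m1,
    ic, fun b hb => ?_, fun x hx => ?_⟩
  · let φ : A →+* P.ring := A.val.toRingHom.codRestrict P.ring fun z => mA _ z.2
    have hb' : IsIntegral A b := hb
    have h1 : IsIntegral P.ring b := hb'.map_of_comp_eq φ (RingHom.id K) rfl
    obtain ⟨c, rfl⟩ := IsIntegrallyClosed.isIntegral_iff.1 h1
    exact c.2
  obtain ⟨p, p0, pc, i0, c0⟩ := prim x
  have I : ∀ k, (divX^[k] p).eval x ∈ integralClosure A K ∧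
      x * (divX^[k] p).eval x ∈ integralClosure A K := fun k => by
    constructor <;>
    · by_contra hn
      obtain ⟨V, h1, h2⟩ := Subring.exists_le_valuationSubring_of_isIntegrallyClosedIn
        (R := (integralClosure A K).toSubring) hn
      have := horner p p0 V (fun i => h1 (mC _ (pc i))) k
      first | exact h2 this.1 | exact h2 this.2
  have c1 : ∀ k i, (divX^[k] p).coeff i = p.coeff (i + k) := fun k => by
    induction k with
    | zero => simp
    | succ k ih => intro i; rw [Function.iterate_succ_apply', coeff_divX, ih]; congr 1; omega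
  obtain ⟨k, hk⟩ : ∃ k, ¬ Mx P ((divX^[k] p).eval x) := by
    by_contra hn
    push Not at hn
    have e := congrArg (eval x) (divX_mul_X_add (divX^[i0] p))
    rw [eval_add, eval_mul, eval_X, eval_C, c1, ← Function.iterate_succ_apply' divX, zero_add] at e
    have := (hn i0).sub ((hn (i0 + 1)).mul hx)
    rw [← e, mul_comm x, add_sub_cancel_left] at this
    exact c0 this
  exact ⟨_, (I k).1, hk, mul_comm x _ ▸ (I k).2⟩

end ada

end Vale.Agent.P283M.Md
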